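import Vale.Agent.P322.Noise

namespace Vale.Agent.P322.Skel

open Finset Real

/-- The differential inequality that drives the semigroup argument. -/
def KeyIneq : Prop :=
  ∀ (n : ℕ) (g : Cube n → ℝ), (∀ y, |g y| < 1) → ∀ r : ℝ, 0 ≤ r → r < 1 →
    ent (cubeMean g) - cubeMean (fun y => ent (g y)) = log 2 - ent r →
    r * artanh r ≤ dirForm g

lemma continuous_infoRho {n : ℕ} (f : Cube n → Bool) : Continuous (infoRho f) := by
  unfold infoRho cubeMean noiseOp cubeKernel
  have hk : ∀ a b : Bool, Continuous fun ρ : ℝ => rhoKernel ρ a b := by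
    intro a b; unfold rhoKernel; split <;> fun_prop
  have hh := continuous_hbin
  fun_prop

lemma infoRho_zero {n : ℕ} (f : Cube n → Bool) : infoRho f 0 = 0 := by
  simp [infoRho, noiseOp_zero, cubeMean_const]

lemma infoRho_one {n : ℕ} (f : Cube n → Bool) :
    infoRho f 1 = ent (cubeMean fun x => spin (f x)) := by
  have : ∀ y, ent (noiseOp f 1 y) = 0 := by
    intro y
    rw [noiseOp_one]
    cases f y <;> simp [spin, hbin_one, hbin_neg_one]
  simp [infoRho, this, cubeMean_const]

lemma infoRho_const {n : ℕ} (f : Cube n → Bool) (c : Bool) (hc : ∀ x, f x = c) (ρ : ℝ) :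
    infoRho f ρ = 0 := by
  simp [infoRho, noiseOp, hc, ← sum_mul, sum_cubeKernel_left, cubeMean_const]

lemma hasDerivAt_infoRho {n : ℕ} (f : Cube n → Bool) {ρ : ℝ}
    (hg : ∀ y, |noiseOp f ρ y| < 1) :
    HasDerivAt (infoRho f)
      (cubeMean fun y => artanh (noiseOp f ρ y) * noiseDeriv f ρ y) ρ := by
  have h : ∀ y ∈ (univ : Finset (Cube n)), HasDerivAt (fun r => ent (noiseOp f r y))
      (-artanh (noiseOp f ρ y) * noiseDeriv f ρ y) ρ := by
    intro y _
    exact HasDerivAt.comp (h := fun r => noiseOp f r y) (h₂ := ent) ρ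
      (hasDerivAt_hbin (abs_lt.1 (hg y)).1 (abs_lt.1 (hg y)).2) (hasDerivAt_noiseOp f ρ y)
  have := ((HasDerivAt.fun_sum h).div_const ((2 : ℝ) ^ n)).const_sub
    (ent (cubeMean fun x => spin (f x)))
  refine this.congr_deriv ?_
  unfold cubeMean
  rw [← neg_div, ← sum_neg_distrib]
  simp

lemma mul_deriv_infoRho {n : ℕ} (f : Cube n → Bool) (ρ : ℝ) :
    ρ * (cubeMean fun y => artanh (noiseOp f ρ y) * noiseDeriv f ρ y)
      = dirForm (noiseOp f ρ) := by
  rw [dirForm_eq, ← cubeMean_smul]
  congr 1
  funext y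
  rw [← mul_noiseDeriv]
  ring

/-- The key inequality implies the information bound at every correlation. -/
theorem infoRho_le_of_keyIneq (hkey : KeyIneq) {n : ℕ} (f : Cube n → Bool) {ρ : ℝ}
    (h0 : 0 ≤ ρ) (h1 : ρ ≤ 1) : infoRho f ρ ≤ log 2 - ent ρ := by
  by_cases hab : (∃ a, f a = true) ∧ ∃ b, f b = false
  swap
  · have hc : ∃ c, ∀ x, f x = c := by
      by_cases ht : ∃ a, f a = true
      · refine ⟨true, fun x => ?_⟩
        by_contra hx
        exact hab ⟨ht, x, by simpa using hx⟩
      · exact ⟨false, fun x => by simpa using fun h => ht ⟨x, h⟩⟩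
    obtain ⟨c, hc⟩ := hc
    rw [infoRho_const f c hc]
    linarith [hbin_le_log_two ρ]
  obtain ⟨⟨a, ha⟩, b, hb⟩ := hab
  rcases h0.eq_or_lt with rfl | hpos
  · rw [infoRho_zero, hbin_zero, sub_self]
  by_contra hcon
  push Not at hcon
  set u : ℝ → ℝ := fun x => infoRho f x - (log 2 - ent x) with hu
  have hc : 0 < u ρ := by simp only [hu]; linarith
  have hu1 : u 1 ≤ 0 := by
    simp only [hu, infoRho_one, hbin_one]
    linarith [hbin_le_log_two (cubeMean fun x => spin (f x))]
  have hcont : Continuous fun x => -u x := by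
    simp only [hu]
    exact ((continuous_infoRho f).sub (continuous_const.sub continuous_hbin)).neg
  have key : ∀ ⦃x⦄, x ∈ Set.Icc ρ 1 → -u x ≤ -u ρ := by
    refine image_le_of_deriv_right_lt_deriv_boundary'
      (f' := fun x => -((cubeMean fun y => artanh (noiseOp f x y) * noiseDeriv f x y)
        - artanh x))
      (B' := fun _ => 0) hcont.continuousOn ?_ le_rfl continuousOn_const ?_ ?_
    · intro x hx
      have hx0 : 0 < x := lt_of_lt_of_le hpos hx.1
      have hI := hasDerivAt_infoRho f (abs_noiseOp_lt_one f hx0.le hx.2 ha hb)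
      have hφ : HasDerivAt (fun t => log 2 - ent t) (artanh x) x :=
        ((hasDerivAt_hbin (by linarith) hx.2).const_sub (log 2)).congr_deriv (by ring)
      exact (hI.sub hφ).neg.hasDerivWithinAt
    · exact fun x _ => hasDerivWithinAt_const _ _ _
    · intro x hx hxu
      have hx0 : 0 < x := lt_of_lt_of_le hpos hx.1
      have hux : 0 < u x := by linarith
      have hg := abs_noiseOp_lt_one f hx0.le hx.2 ha hb
      have hIlt : infoRho f x < log 2 := by
        have : (0 : ℝ) < cubeMean fun y => ent (noiseOp f x y) := by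
          refine div_pos (sum_pos (fun y _ => ?_) univ_nonempty) (by positivity)
          exact hbin_pos (abs_lt.1 (hg y)).1 (abs_lt.1 (hg y)).2
        unfold infoRho
        linarith [hbin_le_log_two (cubeMean fun y => spin (f y))]
      have hmem : log 2 - infoRho f x ∈ Set.Ioo (ent 1) (ent x) := by
        refine ⟨by rw [hbin_one]; linarith, ?_⟩
        simp only [hu] at hux
        linarith
      obtain ⟨r, ⟨hr1, hr2⟩, hr⟩ :=
        intermediate_value_Ioo' hx.2.le continuous_hbin.continuousOn hmem
      have hG : r * artanh r ≤ dirForm (noiseOp f x) := by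
        refine hkey n _ hg r (hx0.le.trans hr1.le) hr2 ?_
        rw [cubeMean_noiseOp]
        have : infoRho f x = log 2 - ent r := by linarith
        simpa [infoRho] using this
      have hAx : 0 ≤ artanh x := by
        rw [← artanh_zero]
        exact artanh_le_artanh (by norm_num) hx.2 hx0.le
      have hA : artanh x < artanh r :=
        (artanh_lt_artanh_iff ⟨by linarith, hx.2⟩ ⟨by linarith, hr2⟩).2 hr1
      have hlt : x * artanh x < r * artanh r := mul_lt_mul'' hr1 hA hx0.le hAx
      rw [← mul_deriv_infoRho] at hG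
      have : artanh x < cubeMean fun y => artanh (noiseOp f x y) * noiseDeriv f x y :=
        lt_of_mul_lt_mul_left (hlt.trans_le hG) hx0.le
      linarith
  have := key ⟨h1, le_rfl⟩
  linarith

end Vale.Agent.P322.Skel
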