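import Vale.Agent.P322.Model
import Vale.Agent.P322.Ode

namespace Vale.Agent.P322.Skel

open Finset Real

lemma bscProb_eq_rhoKernel (ε : ℝ) (a b : Bool) :
    bscProb ε a b = rhoKernel (1 - 2 * ε) a b := by
  unfold bscProb rhoKernel; split <;> ring

lemma jointProb_eq {n : ℕ} (f : Cube n → Bool) (ε : ℝ) (b : Bool) (y : Cube n) :
    jointProb f ε b y
      = (1 + spin b * noiseOp f (1 - 2 * ε) y) / 2 / (2 : ℝ) ^ n := by
  have h : ∀ x, (if f x = b then (1 / (2 : ℝ) ^ n) * ∏ i, bscProb ε (x i) (y i) else 0)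
      = (cubeKernel (1 - 2 * ε) x y + spin b * (cubeKernel (1 - 2 * ε) x y * spin (f x)))
          / 2 / (2 : ℝ) ^ n := by
    intro x
    simp only [cubeKernel, bscProb_eq_rhoKernel]
    cases f x <;> cases b <;> simp [spin] <;> ring
  simp only [jointProb, h, ← sum_div, sum_add_distrib, sum_cubeKernel_left, ← mul_sum]
  rfl

lemma sum_jointProb_right {n : ℕ} (f : Cube n → Bool) (ε : ℝ) (b : Bool) :
    ∑ y, jointProb f ε b y = (1 + spin b * cubeMean fun x => spin (f x)) / 2 := by
  simp only [jointProb_eq, ← sum_div, sum_add_distrib, ← mul_sum]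
  rw [← cubeMean_noiseOp f (1 - 2 * ε)]
  simp only [cubeMean, sum_const, card_univ, Fintype.card_pi_const, Fintype.card_bool,
    nsmul_eq_mul, mul_one, Nat.cast_pow, Nat.cast_ofNat]
  field_simp

lemma sum_jointProb_left {n : ℕ} (f : Cube n → Bool) (ε : ℝ) (y : Cube n) :
    ∑ b, jointProb f ε b y = 1 / (2 : ℝ) ^ n := by
  simp [jointProb_eq, spin]
  ring

lemma binEntropy_eq' (x : ℝ) :
    ent x = negMulLog ((1 + x) / 2) + negMulLog ((1 - x) / 2) := by
  rw [ent, binEntropy_eq_negMulLog_add_negMulLog_one_sub]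
  congr 2; ring

lemma mul_log_div_of_imp {u v : ℝ} (h : v = 0 → u = 0) :
    u * log (u / v) = -negMulLog u - u * log v := by
  by_cases hu : u = 0
  · simp [hu]
  · rw [log_div hu (fun hv => hu (h hv)), negMulLog]; ring

lemma mutualInfoBits_eq {n : ℕ} (f : Cube n → Bool) {ε : ℝ} (h0 : 0 ≤ ε) (h1 : ε ≤ 1 / 2) :
    mutualInfoBits (jointProb f ε) = infoRho f (1 - 2 * ε) / log 2 := by
  set ρ := 1 - 2 * ε with hρ
  set m := cubeMean fun x => spin (f x) with hm
  have hN : (0 : ℝ) < 2 ^ n := by positivity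
  have hNne := hN.ne'
  have hmean : cubeMean (noiseOp f ρ) = m := cubeMean_noiseOp f ρ
  have hu : ∀ (b : Bool) (y : Cube n), 0 ≤ (1 + spin b * noiseOp f ρ y) / 2 := by
    intro b y
    have := noiseOp_mem f (ρ := ρ) (by linarith) (by linarith) y
    cases b <;> simp [spin] <;> linarith
  have hv : ∀ b, (1 + spin b * m) / 2 = (∑ y, (1 + spin b * noiseOp f ρ y) / 2) / 2 ^ n := by
    intro b
    rw [← hmean]
    simp only [cubeMean, ← sum_div, sum_add_distrib, ← mul_sum, sum_const, card_univ,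
      Fintype.card_pi_const, Fintype.card_bool, nsmul_eq_mul, mul_one, Nat.cast_pow,
      Nat.cast_ofNat]
    field_simp
  have hterm : ∀ b y, jointProb f ε b y *
      logb 2 (jointProb f ε b y / ((∑ y', jointProb f ε b y') * (∑ b', jointProb f ε b' y)))
      = (-negMulLog ((1 + spin b * noiseOp f ρ y) / 2)
          - (1 + spin b * noiseOp f ρ y) / 2 * log ((1 + spin b * m) / 2))
            / 2 ^ n / log 2 := by
    intro b y
    have himp : (1 + spin b * m) / 2 = 0 → (1 + spin b * noiseOp f ρ y) / 2 = 0 := by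
      intro h
      rw [hv b, div_eq_zero_iff, or_iff_left hNne,
        sum_eq_zero_iff_of_nonneg fun z _ => hu b z] at h
      exact h y (mem_univ y)
    rw [← mul_log_div_of_imp himp, sum_jointProb_right, sum_jointProb_left, jointProb_eq,
      ← hρ, ← hm, logb]
    rw [show (1 + spin b * noiseOp f ρ y) / 2 / 2 ^ n / ((1 + spin b * m) / 2 * (1 / 2 ^ n))
      = (1 + spin b * noiseOp f ρ y) / 2 / ((1 + spin b * m) / 2) by
        rw [mul_one_div, div_div_div_cancel_right₀ hNne]]
    ring
  unfold mutualInfoBits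
  simp only [hterm]
  rw [sum_comm, infoRho, ← hm]
  simp only [← sum_div, Fintype.sum_bool, spin, if_true, Bool.false_eq_true, if_false,
    one_mul, neg_mul, ← sub_eq_add_neg]
  congr 1
  have e1 : ∑ y, (1 + noiseOp f ρ y) / 2 = 2 ^ n * ((1 + m) / 2) := by
    have := hv true
    simp only [spin, if_true, one_mul] at this
    rw [this]; field_simp
  have e2 : ∑ y, (1 - noiseOp f ρ y) / 2 = 2 ^ n * ((1 - m) / 2) := by
    have := hv false
    simp only [spin, Bool.false_eq_true, if_false, neg_mul, one_mul, ← sub_eq_add_neg] at this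
    rw [this]; field_simp
  simp only [cubeMean, binEntropy_eq', sum_add_distrib, sum_sub_distrib, sum_neg_distrib,
    ← sum_mul, e1, e2]
  simp only [negMulLog]
  field_simp
  ring

lemma entropyBits_eq (ε : ℝ) : entropyBits ε = ent (1 - 2 * ε) / log 2 := by
  have e : (1 + (1 - 2 * ε)) / 2 = 1 - ε := by ring
  rw [ent, e, binEntropy_one_sub, binEntropy_eq_negMulLog_add_negMulLog_one_sub]
  simp only [entropyBits, logb, negMulLog]
  ring

/-- The key inequality implies the Courtade–Kumar bound. -/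
theorem mutualInfo_le_of_keyIneq (hkey : KeyIneq) (n : ℕ) (f : (Fin n → Bool) → Bool) (ε : ℝ)
    (h0 : 0 ≤ ε) (h1 : ε ≤ 1 / 2) :
    mutualInfoBits (jointProb f ε) ≤ 1 - entropyBits ε := by
  rw [mutualInfoBits_eq f h0 h1, entropyBits_eq,
    one_sub_div (log_pos one_lt_two).ne']
  gcongr
  exact infoRho_le_of_keyIneq hkey f (by linarith) (by linarith)

end Vale.Agent.P322.Skel
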