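import Vale.Agent.P322.Induction
import Vale.Agent.P322.Reduction

namespace Vale.Agent.P322.Skel

open Finset Real

/-- A profile dominating `r * artanh r` along the information parametrisation and passing the
induction gives the Courtade–Kumar inequality. -/
theorem courtadeKumar_of_profile (F : ℝ → ℝ → ℝ)
    (hbase : ∀ x, |x| < 1 → F x (ent x) ≤ 0)
    (hdom : ∀ m H r, |m| < 1 → 0 ≤ r → r < 1 → ent m - H = log 2 - ent r →
      r * artanh r ≤ F m H)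
    (hstep : ∀ (n : ℕ) (g0 g1 : Cube n → ℝ), (∀ x, |g0 x| < 1) → (∀ x, |g1 x| < 1) →
      F ((cubeMean g0 + cubeMean g1) / 2)
          ((cubeMean (fun x => ent (g0 x)) + cubeMean fun x => ent (g1 x)) / 2)
        ≤ (F (cubeMean g0) (cubeMean fun x => ent (g0 x))
            + F (cubeMean g1) (cubeMean fun x => ent (g1 x))) / 2
          + cubeMean fun x => edgeK (g0 x) (g1 x))
    (n : ℕ) (f : (Fin n → Bool) → Bool) (ε : ℝ) (h0 : 0 ≤ ε) (h1 : ε ≤ 1 / 2) :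
    mutualInfoBits (jointProb f ε) ≤ 1 - entropyBits ε :=
  mutualInfo_le_of_keyIneq (fun k g hg r hr0 hr1 hr =>
    (hdom _ _ r (abs_cubeMean_lt_one hg) hr0 hr1 hr).trans
      (profile_le_dirForm F hbase hstep k g hg)) n f ε h0 h1

lemma Phi_ent {r : ℝ} (h0 : 0 ≤ r) (h1 : r < 1) : Phi (ent r) = r * artanh r := by
  have h : ∃ s ∈ Set.Ico (0 : ℝ) 1, ent s = ent r := ⟨r, ⟨h0, h1⟩, rfl⟩
  rw [Phi, dif_pos h]
  obtain ⟨⟨hs0, hs1⟩, hs⟩ := h.choose_spec
  have : h.choose = r := strictAntiOn_hbin.injOn ⟨hs0, hs1.le⟩ ⟨h0, h1.le⟩ hs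
  rw [this]

lemma F0_of_eq {r D : ℝ} (h0 : 0 ≤ r) (h1 : r < 1) (hD : D = log 2 - ent r) :
    F0 D = r * artanh r := by
  rw [F0, hD, sub_sub_cancel, Phi_ent h0 h1]

lemma cubeMean_eq_weighted {n : ℕ} (u : Cube n → ℝ) :
    ∑ x, (1 / (2 : ℝ) ^ n) * u x = cubeMean u := by
  rw [← mul_sum, cubeMean, one_div_mul_eq_div]

/-- The three scalar facts about a profile give the Courtade–Kumar inequality. -/
theorem courtadeKumar_of_stepInequality (P : ℝ → ℝ → ℝ)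
    (hbase : ∀ m ∈ Set.Ioo (-1 : ℝ) 1, P m (ent m) ≤ 0)
    (hdom : ∀ m H, F0 (ent m - H) ≤ P m H)
    (hstep : StepInequality P)
    (n : ℕ) (f : (Fin n → Bool) → Bool) (ε : ℝ) (h0 : 0 ≤ ε) (h1 : ε ≤ 1 / 2) :
    mutualInfoBits (jointProb f ε) ≤ 1 - entropyBits ε := by
  refine courtadeKumar_of_profile P (fun x hx => hbase x (abs_lt.1 hx))
    (fun m H r _ hr0 hr1 hr => F0_of_eq hr0 hr1 hr ▸ hdom m H) ?_ n f ε h0 h1
  intro k g0 g1 hg0 hg1
  have h := hstep (Cube k) (fun _ => 1 / (2 : ℝ) ^ k) g0 g1 (fun _ => by positivity)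
    (by simp) (fun x => abs_lt.1 (hg0 x)) (fun x => abs_lt.1 (hg1 x))
  simp only [cubeMean_eq_weighted] at h
  refine h.trans (le_of_eq ?_)
  congr 1
  simp only [edgeK, cubeMean, ← sum_div]
  ring

end Vale.Agent.P322.Skel
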