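import Vale.Agent.P322.Scalar.Defs

namespace Vale.Agent.P322.Skel

open Finset Real

/-- The discrete cube. -/
abbrev Cube (n : ℕ) : Type := Fin n → Bool

/-- Uniform average on the cube. -/
noncomputable def cubeMean {n : ℕ} (g : Cube n → ℝ) : ℝ := (∑ x, g x) / (2 : ℝ) ^ n

/-- Flip the `i`-th coordinate. -/
def flipAt {n : ℕ} (i : Fin n) (y : Cube n) : Cube n := Function.update y i (!(y i))

/-- Edge term. -/
noncomputable def edgeK (a b : ℝ) : ℝ := (a - b) * (artanh a - artanh b) / 4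

/-- Dirichlet form of `g` against `artanh g`. -/
noncomputable def dirForm {n : ℕ} (g : Cube n → ℝ) : ℝ :=
  cubeMean fun y => ∑ i, edgeK (g y) (g (flipAt i y))

lemma hbin_zero : ent 0 = log 2 := by
  have : ((1 : ℝ) + 0) / 2 = 2⁻¹ := by norm_num
  rw [ent, this, binEntropy_two_inv]

lemma hbin_one : ent 1 = 0 := by simp [ent]

lemma hbin_neg_one : ent (-1) = 0 := by simp [ent]

lemma hbin_neg (x : ℝ) : ent (-x) = ent x := by
  rw [ent, ent, ← binEntropy_one_sub]; congr 1; ring

lemma hbin_le_log_two (x : ℝ) : ent x ≤ log 2 := binEntropy_le_log_two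

lemma hbin_nonneg {x : ℝ} (h1 : -1 ≤ x) (h2 : x ≤ 1) : 0 ≤ ent x :=
  binEntropy_nonneg (by linarith) (by linarith)

lemma hbin_pos {x : ℝ} (h1 : -1 < x) (h2 : x < 1) : 0 < ent x :=
  binEntropy_pos (by linarith) (by linarith)

lemma continuous_hbin : Continuous ent := by
  unfold ent; fun_prop

lemma hasDerivAt_hbin {x : ℝ} (h1 : -1 < x) (h2 : x < 1) :
    HasDerivAt ent (-artanh x) x := by
  have hp0 : (1 + x) / 2 ≠ 0 := by intro h; linarith
  have hp1 : (1 + x) / 2 ≠ 1 := by intro h; linarith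
  have ha : HasDerivAt (fun y : ℝ => (1 + y) / 2) (1 / 2) x :=
    ((hasDerivAt_id x).const_add 1).div_const 2
  have := (hasDerivAt_binEntropy hp0 hp1).comp x ha
  refine this.congr_deriv ?_
  rw [artanh_eq_half_log ⟨h1.le, h2.le⟩]
  have e : (1 : ℝ) - (1 + x) / 2 = (1 - x) / 2 := by ring
  have l1 : log ((1 - x) / 2) = log (1 - x) - log 2 :=
    log_div (by intro h; linarith) two_ne_zero
  have l2 : log ((1 + x) / 2) = log (1 + x) - log 2 :=
    log_div (by intro h; linarith) two_ne_zero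
  have l3 : log ((1 + x) / (1 - x)) = log (1 + x) - log (1 - x) :=
    log_div (by intro h; linarith) (by intro h; linarith)
  rw [e, l1, l2, l3]
  ring

lemma strictAntiOn_hbin : StrictAntiOn ent (Set.Icc 0 1) := by
  intro x hx y hy hxy
  refine binEntropy_strictAntiOn ⟨by linarith [hx.1], by linarith [hx.2]⟩
    ⟨by linarith [hy.1], by linarith [hy.2]⟩ (by linarith)

lemma cubeMean_const {n : ℕ} (c : ℝ) : cubeMean (fun _ : Cube n => c) = c := by
  simp [cubeMean, nsmul_eq_mul]

lemma cubeMean_add {n : ℕ} (f g : Cube n → ℝ) :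
    cubeMean (fun x => f x + g x) = cubeMean f + cubeMean g := by
  simp [cubeMean, sum_add_distrib, add_div]

lemma cubeMean_smul {n : ℕ} (c : ℝ) (f : Cube n → ℝ) :
    cubeMean (fun x => c * f x) = c * cubeMean f := by
  simp [cubeMean, ← mul_sum, mul_div_assoc]

lemma cubeMean_le_cubeMean {n : ℕ} {f g : Cube n → ℝ} (h : ∀ x, f x ≤ g x) :
    cubeMean f ≤ cubeMean g := by
  unfold cubeMean
  gcongr with x
  exact h x

lemma abs_cubeMean_lt_one {n : ℕ} {g : Cube n → ℝ} (hg : ∀ x, |g x| < 1) :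
    |cubeMean g| < 1 := by
  have hN : (0 : ℝ) < 2 ^ n := by positivity
  rw [cubeMean, abs_div, abs_of_pos hN, div_lt_one hN]
  calc |∑ x, g x| ≤ ∑ x, |g x| := abs_sum_le_sum_abs _ _
    _ < ∑ _x : Cube n, (1 : ℝ) := sum_lt_sum_of_nonempty univ_nonempty fun x _ => hg x
    _ = 2 ^ n := by simp

lemma flipAt_involutive {n : ℕ} (i : Fin n) : Function.Involutive (flipAt i) := by
  intro y
  ext j
  by_cases h : j = i
  · subst h; simp [flipAt]
  · simp [flipAt, h]

lemma sum_flipAt {n : ℕ} (i : Fin n) (f : Cube n → ℝ) : ∑ y, f (flipAt i y) = ∑ y, f y :=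
  (flipAt_involutive i).bijective.sum_comp f

end Vale.Agent.P322.Skel
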