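import Vale.Agent.P322.Basic

namespace Vale.Agent.P322.Skel

open Finset Real

lemma sum_cube_succ {n : ℕ} (f : Cube (n + 1) → ℝ) :
    ∑ x, f x = (∑ x, f (Fin.cons false x)) + ∑ x, f (Fin.cons true x) := by
  rw [← (Fin.consEquiv fun _ : Fin (n + 1) => Bool).sum_comp f, Fintype.sum_prod_type,
    Fintype.sum_bool, add_comm]
  rfl

lemma cubeMean_succ {n : ℕ} (f : Cube (n + 1) → ℝ) :
    cubeMean f = (cubeMean (fun x => f (Fin.cons false x))
      + cubeMean fun x => f (Fin.cons true x)) / 2 := by
  simp only [cubeMean, sum_cube_succ, pow_succ]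
  ring

lemma flipAt_zero_cons {n : ℕ} (b : Bool) (x : Cube n) :
    flipAt 0 (Fin.cons b x : Cube (n + 1)) = Fin.cons (!b) x := by
  simp [flipAt, Fin.update_cons_zero]

lemma flipAt_succ_cons {n : ℕ} (b : Bool) (i : Fin n) (x : Cube n) :
    flipAt i.succ (Fin.cons b x : Cube (n + 1)) = Fin.cons b (flipAt i x) := by
  simp [flipAt, Fin.cons_update]

lemma edgeK_comm (a b : ℝ) : edgeK a b = edgeK b a := by unfold edgeK; ring

lemma edgeK_nonneg {a b : ℝ} (ha : |a| < 1) (hb : |b| < 1) : 0 ≤ edgeK a b := by
  rw [abs_lt] at ha hb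
  unfold edgeK
  rcases le_total a b with h | h
  · have := artanh_le_artanh ha.1 hb.2 h
    exact div_nonneg (mul_nonneg_of_nonpos_of_nonpos (by linarith) (by linarith)) (by norm_num)
  · have := artanh_le_artanh hb.1 ha.2 h
    exact div_nonneg (mul_nonneg (by linarith) (by linarith)) (by norm_num)

/-- Splitting the Dirichlet form along the first coordinate. -/
lemma dirForm_succ {n : ℕ} (g : Cube (n + 1) → ℝ) :
    dirForm g = (dirForm (fun x => g (Fin.cons false x))
        + dirForm fun x => g (Fin.cons true x)) / 2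
      + cubeMean fun x => edgeK (g (Fin.cons false x)) (g (Fin.cons true x)) := by
  simp only [dirForm]
  rw [cubeMean_succ]
  simp only [Fin.sum_univ_succ, flipAt_zero_cons, flipAt_succ_cons, Bool.not_false,
    Bool.not_true, cubeMean_add]
  rw [show (fun x : Cube n => edgeK (g (Fin.cons true x)) (g (Fin.cons false x)))
    = fun x => edgeK (g (Fin.cons false x)) (g (Fin.cons true x)) from
      funext fun x => edgeK_comm _ _]
  ring

/-- Induction on the dimension: a profile that is nonpositive on points and passes the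
two-point step bounds the Dirichlet form in every dimension. -/
theorem profile_le_dirForm (F : ℝ → ℝ → ℝ)
    (hbase : ∀ x, |x| < 1 → F x (ent x) ≤ 0)
    (hstep : ∀ (n : ℕ) (g0 g1 : Cube n → ℝ), (∀ x, |g0 x| < 1) → (∀ x, |g1 x| < 1) →
      F ((cubeMean g0 + cubeMean g1) / 2)
          ((cubeMean (fun x => ent (g0 x)) + cubeMean fun x => ent (g1 x)) / 2)
        ≤ (F (cubeMean g0) (cubeMean fun x => ent (g0 x))
            + F (cubeMean g1) (cubeMean fun x => ent (g1 x))) / 2
          + cubeMean fun x => edgeK (g0 x) (g1 x)) :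
    ∀ (n : ℕ) (g : Cube n → ℝ), (∀ x, |g x| < 1) →
      F (cubeMean g) (cubeMean fun x => ent (g x)) ≤ dirForm g := by
  intro n
  induction n with
  | zero =>
    intro g hg
    have hm : ∀ u : Cube 0 → ℝ, cubeMean u = u default := by
      intro u; simp only [cubeMean, Fintype.sum_unique, pow_zero, div_one]
      exact congrArg u (Subsingleton.elim _ _)
    have hd : dirForm g = 0 := by simp [dirForm, cubeMean]
    rw [hd, hm, hm]
    exact hbase _ (hg _)
  | succ n ih =>
    intro g hg
    have h0 := ih (fun x => g (Fin.cons false x)) fun x => hg _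
    have h1 := ih (fun x => g (Fin.cons true x)) fun x => hg _
    have hs := hstep n _ _ (fun x => hg (Fin.cons false x)) (fun x => hg (Fin.cons true x))
    rw [cubeMean_succ g, cubeMean_succ fun x => ent (g x), dirForm_succ g]
    linarith

end Vale.Agent.P322.Skel
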