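import Mathlib

namespace Vale.Agent.P322

open Finset Real

/-- Transition probability of the binary symmetric channel with crossover probability `ε`. -/
noncomputable def bscProb (ε : ℝ) (a b : Bool) : ℝ := if a = b then 1 - ε else ε

/-- `Pr(f X = b, Y = y)` for uniform `X` and `Y` its image under `n` independent channels. -/
noncomputable def jointProb {n : ℕ} (f : (Fin n → Bool) → Bool) (ε : ℝ) (b : Bool)
    (y : Fin n → Bool) : ℝ :=
  ∑ x, if f x = b then (1 / (2 : ℝ) ^ n) * ∏ i, bscProb ε (x i) (y i) else 0

/-- Mutual information in bits of a joint probability mass function. -/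
noncomputable def mutualInfoBits {α β : Type} [Fintype α] [Fintype β] (p : α → β → ℝ) : ℝ :=
  ∑ a, ∑ b, p a b * logb 2 (p a b / ((∑ b', p a b') * (∑ a', p a' b)))

/-- Binary entropy in bits. -/
noncomputable def entropyBits (p : ℝ) : ℝ := -(p * logb 2 p) - (1 - p) * logb 2 (1 - p)

end Vale.Agent.P322
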