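import Vale.Agent.P322.Basic

namespace Vale.Agent.P322.Skel

open Finset Real

/-- The real sign of a bit. -/
noncomputable def spin (b : Bool) : ℝ := if b then 1 else -1

/-- One-bit noise kernel with correlation `ρ`. -/
noncomputable def rhoKernel (ρ : ℝ) (a b : Bool) : ℝ :=
  if a = b then (1 + ρ) / 2 else (1 - ρ) / 2

/-- Product noise kernel. -/
noncomputable def cubeKernel {n : ℕ} (ρ : ℝ) (x y : Cube n) : ℝ :=
  ∏ i, rhoKernel ρ (x i) (y i)

/-- The noise operator applied to a sign function. -/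
noncomputable def noiseOp {n : ℕ} (f : Cube n → Bool) (ρ : ℝ) (y : Cube n) : ℝ :=
  ∑ x, cubeKernel ρ x y * spin (f x)

/-- Information (nats) retained at correlation `ρ`. -/
noncomputable def infoRho {n : ℕ} (f : Cube n → Bool) (ρ : ℝ) : ℝ :=
  ent (cubeMean fun x => spin (f x)) - cubeMean fun y => ent (noiseOp f ρ y)

lemma rhoKernel_comm (ρ : ℝ) (a b : Bool) : rhoKernel ρ a b = rhoKernel ρ b a := by
  simp [rhoKernel, eq_comm]

lemma cubeKernel_comm {n : ℕ} (ρ : ℝ) (x y : Cube n) :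
    cubeKernel ρ x y = cubeKernel ρ y x := by
  simp only [cubeKernel, rhoKernel_comm]

lemma sum_cubeKernel_left {n : ℕ} (ρ : ℝ) (y : Cube n) : ∑ x, cubeKernel ρ x y = 1 := by
  unfold cubeKernel
  rw [← Fintype.prod_sum fun i b => rhoKernel ρ b (y i)]
  refine prod_eq_one fun i _ => ?_
  cases y i <;> simp [rhoKernel] <;> ring

lemma sum_cubeKernel_right {n : ℕ} (ρ : ℝ) (x : Cube n) : ∑ y, cubeKernel ρ x y = 1 := by
  simp_rw [cubeKernel_comm ρ x]
  exact sum_cubeKernel_left ρ x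

lemma rhoKernel_nonneg {ρ : ℝ} (h0 : 0 ≤ ρ) (h1 : ρ ≤ 1) (a b : Bool) :
    0 ≤ rhoKernel ρ a b := by
  unfold rhoKernel; split <;> linarith

lemma cubeKernel_nonneg {n : ℕ} {ρ : ℝ} (h0 : 0 ≤ ρ) (h1 : ρ ≤ 1) (x y : Cube n) :
    0 ≤ cubeKernel ρ x y :=
  prod_nonneg fun _ _ => rhoKernel_nonneg h0 h1 _ _

lemma cubeKernel_pos {n : ℕ} {ρ : ℝ} (h0 : 0 ≤ ρ) (h1 : ρ < 1) (x y : Cube n) :
    0 < cubeKernel ρ x y := by
  refine prod_pos fun i _ => ?_
  unfold rhoKernel; split <;> linarith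

lemma spin_mem (b : Bool) : -1 ≤ spin b ∧ spin b ≤ 1 := by
  cases b <;> norm_num [spin]

lemma noiseOp_mem {n : ℕ} (f : Cube n → Bool) {ρ : ℝ} (h0 : 0 ≤ ρ) (h1 : ρ ≤ 1) (y : Cube n) :
    -1 ≤ noiseOp f ρ y ∧ noiseOp f ρ y ≤ 1 := by
  have hk := sum_cubeKernel_left ρ y
  constructor
  · calc (-1 : ℝ) = ∑ x, cubeKernel ρ x y * (-1) := by rw [← sum_mul, hk, one_mul]
      _ ≤ _ := sum_le_sum fun x _ =>
        mul_le_mul_of_nonneg_left (spin_mem _).1 (cubeKernel_nonneg h0 h1 _ _)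
  · calc noiseOp f ρ y ≤ ∑ x, cubeKernel ρ x y * 1 := sum_le_sum fun x _ =>
        mul_le_mul_of_nonneg_left (spin_mem _).2 (cubeKernel_nonneg h0 h1 _ _)
      _ = 1 := by rw [← sum_mul, hk, one_mul]

lemma abs_noiseOp_lt_one {n : ℕ} (f : Cube n → Bool) {ρ : ℝ} (h0 : 0 ≤ ρ) (h1 : ρ < 1)
    {a b : Cube n} (ha : f a = true) (hb : f b = false) (y : Cube n) :
    |noiseOp f ρ y| < 1 := by
  have hk := sum_cubeKernel_left ρ y
  rw [abs_lt]
  constructor
  · calc (-1 : ℝ) = ∑ x, cubeKernel ρ x y * (-1) := by rw [← sum_mul, hk, one_mul]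
      _ < _ := sum_lt_sum (fun x _ =>
          mul_le_mul_of_nonneg_left (spin_mem _).1 (cubeKernel_nonneg h0 h1.le _ _))
        ⟨a, mem_univ _, mul_lt_mul_of_pos_left (by simp [spin, ha]) (cubeKernel_pos h0 h1 _ _)⟩
  · calc noiseOp f ρ y < ∑ x, cubeKernel ρ x y * 1 := by
          refine sum_lt_sum (fun x _ =>
            mul_le_mul_of_nonneg_left (spin_mem _).2 (cubeKernel_nonneg h0 h1.le _ _)) ?_
          exact ⟨b, mem_univ _,
            mul_lt_mul_of_pos_left (by simp [spin, hb]) (cubeKernel_pos h0 h1 _ _)⟩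
      _ = 1 := by rw [← sum_mul, hk, one_mul]

lemma cubeMean_noiseOp {n : ℕ} (f : Cube n → Bool) (ρ : ℝ) :
    cubeMean (noiseOp f ρ) = cubeMean fun x => spin (f x) := by
  unfold cubeMean noiseOp
  rw [sum_comm]
  simp_rw [← sum_mul, sum_cubeKernel_right, one_mul]

lemma noiseOp_one {n : ℕ} (f : Cube n → Bool) (y : Cube n) : noiseOp f 1 y = spin (f y) := by
  have hk : ∀ x, cubeKernel 1 x y = if x = y then 1 else 0 := by
    intro x
    split
    · next h => subst h; simp [cubeKernel, rhoKernel]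
    · next h =>
      obtain ⟨i, hi⟩ := Function.ne_iff.1 h
      exact prod_eq_zero (mem_univ i) (by simp [rhoKernel, hi])
  simp [noiseOp, hk]

lemma noiseOp_zero {n : ℕ} (f : Cube n → Bool) (y : Cube n) :
    noiseOp f 0 y = cubeMean fun x => spin (f x) := by
  have hk : ∀ x, cubeKernel 0 x y = ((2 : ℝ) ^ n)⁻¹ := by
    intro x; simp [cubeKernel, rhoKernel]
  simp [noiseOp, hk, cubeMean, inv_mul_eq_div, ← sum_div]

/-- Derivative of the kernel, already expressed as a product. -/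
noncomputable def kerDeriv {n : ℕ} (ρ : ℝ) (x y : Cube n) : ℝ :=
  ∑ i, (∏ j ∈ univ.erase i, rhoKernel ρ (x j) (y j)) * (spin (x i == y i) / 2)

lemma hasDerivAt_cubeKernel {n : ℕ} (ρ : ℝ) (x y : Cube n) :
    HasDerivAt (fun r => cubeKernel r x y) (kerDeriv ρ x y) ρ := by
  have h : ∀ i ∈ (univ : Finset (Fin n)),
      HasDerivAt (fun r => rhoKernel r (x i) (y i)) (spin (x i == y i) / 2) ρ := by
    intro i _
    by_cases e : x i = y i
    · simpa [rhoKernel, spin, e] using ((hasDerivAt_id ρ).const_add 1).div_const 2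
    · simpa [rhoKernel, spin, e, neg_div] using ((hasDerivAt_id ρ).const_sub 1).div_const 2
  exact (HasDerivAt.fun_finsetProd h).congr_deriv (by simp [kerDeriv])

lemma mul_kerDeriv {n : ℕ} (ρ : ℝ) (x y : Cube n) :
    ρ * kerDeriv ρ x y = ∑ i, (cubeKernel ρ x y - cubeKernel ρ x (flipAt i y)) / 2 := by
  rw [kerDeriv, mul_sum]
  refine sum_congr rfl fun i _ => ?_
  have hy : cubeKernel ρ x y =
      rhoKernel ρ (x i) (y i) * ∏ j ∈ univ.erase i, rhoKernel ρ (x j) (y j) :=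
    (mul_prod_erase univ (fun j => rhoKernel ρ (x j) (y j)) (mem_univ i)).symm
  have hf : cubeKernel ρ x (flipAt i y) =
      rhoKernel ρ (x i) (!(y i)) * ∏ j ∈ univ.erase i, rhoKernel ρ (x j) (y j) := by
    rw [cubeKernel, ← mul_prod_erase univ _ (mem_univ i)]
    congr 1
    · simp [flipAt]
    · refine prod_congr rfl fun j hj => ?_
      simp [flipAt, (mem_erase.1 hj).1]
  rw [hy, hf]
  cases x i <;> cases y i <;> simp [rhoKernel, spin] <;> ring

/-- Derivative of the noise operator. -/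
noncomputable def noiseDeriv {n : ℕ} (f : Cube n → Bool) (ρ : ℝ) (y : Cube n) : ℝ :=
  ∑ x, kerDeriv ρ x y * spin (f x)

lemma hasDerivAt_noiseOp {n : ℕ} (f : Cube n → Bool) (ρ : ℝ) (y : Cube n) :
    HasDerivAt (fun r => noiseOp f r y) (noiseDeriv f ρ y) ρ :=
  HasDerivAt.fun_sum fun x _ => (hasDerivAt_cubeKernel ρ x y).mul_const _

lemma mul_noiseDeriv {n : ℕ} (f : Cube n → Bool) (ρ : ℝ) (y : Cube n) :
    ρ * noiseDeriv f ρ y = ∑ i, (noiseOp f ρ y - noiseOp f ρ (flipAt i y)) / 2 := by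
  simp only [noiseDeriv, noiseOp, mul_sum, ← mul_assoc, mul_kerDeriv, sum_mul]
  rw [sum_comm]
  refine sum_congr rfl fun i _ => ?_
  rw [← sum_sub_distrib, sum_div]
  exact sum_congr rfl fun x _ => by ring

lemma dirForm_eq {n : ℕ} (g : Cube n → ℝ) :
    dirForm g = cubeMean fun y => artanh (g y) * ∑ i, (g y - g (flipAt i y)) / 2 := by
  unfold dirForm cubeMean
  congr 1
  simp_rw [mul_sum]
  rw [sum_comm]
  conv_rhs => rw [sum_comm]
  refine sum_congr rfl fun i _ => ?_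
  have key : ∑ y, artanh (g (flipAt i y)) * (g (flipAt i y) - g y)
      = ∑ y, artanh (g y) * (g y - g (flipAt i y)) := by
    rw [← sum_flipAt i fun y => artanh (g y) * (g y - g (flipAt i y))]
    refine sum_congr rfl fun y _ => ?_
    rw [flipAt_involutive i y]
  calc ∑ y, edgeK (g y) (g (flipAt i y))
      = ((∑ y, artanh (g y) * (g y - g (flipAt i y)))
          + ∑ y, artanh (g (flipAt i y)) * (g (flipAt i y) - g y)) / 4 := by
        rw [← sum_add_distrib, sum_div]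
        exact sum_congr rfl fun y _ => by unfold edgeK; ring
    _ = ∑ y, artanh (g y) * ((g y - g (flipAt i y)) / 2) := by
        rw [key, ← sum_add_distrib, sum_div]
        exact sum_congr rfl fun y _ => by ring

end Vale.Agent.P322.Skel
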